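/-!
Computable part of the branch and bound check of the closure estimate for the four state Potts
channel. Only primitive operations of `Nat` are used, so that the kernel evaluates everything fast.

Units: coordinates of vectors `2^-12`, values of `phi z = z log z - z + 1` `2^-30`, slopes `2^-18`
(with the offset `2^22`), logarithms in a dual certificate `2^-24` (with the offset `2^29`).
-/

namespace Vale.Agent.P154.Q4.BB

/-- `a * b / 2^64`, rounded down. -/
def mulDn (a b : Nat) : Nat := Nat.shiftRight (Nat.mul a b) 64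

/-- `a * b / 2^64`, rounded up. -/
def mulUp (a b : Nat) : Nat := Nat.succ (Nat.shiftRight (Nat.mul a b) 64)

/-- `a * 2^64 / b`, rounded down. -/
def divDn (a b : Nat) : Nat := Nat.div (Nat.shiftLeft a 64) b

/-- `a * 2^64 / b`, rounded up. -/
def divUp (a b : Nat) : Nat := Nat.succ (Nat.div (Nat.shiftLeft a 64) b)

/-- Lower Horner evaluation. -/
def hornDn (x : Nat) : Nat :=
  Nat.add 18446744073709551616 (mulDn x (Nat.add 6148914691236517205 (mulDn x (Nat.add 3689348814741910323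
    (mulDn x (Nat.add 2635249153387078802 (mulDn x (Nat.add 2049638230412172401
    (mulDn x (Nat.add 1676976733973595601 (mulDn x 1418980313362273201)))))))))))

/-- Upper Horner evaluation, with the bound for the tail of the series added. -/
def hornUp (x : Nat) : Nat :=
  Nat.add 18446744073746445105 (mulUp x (Nat.add 6148914691236517206 (mulUp x (Nat.add 3689348814741910324
    (mulUp x (Nat.add 2635249153387078803 (mulUp x (Nat.add 2049638230412172402
    (mulUp x (Nat.add 1676976733973595602 (mulUp x 1418980313362273202)))))))))))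

/-- Evaluation from the value of `z`. -/
def serDnAux (z : Nat) : Nat := mulDn (Nat.mul 2 z) (hornDn (mulDn z z))

/-- Lower bound for `log (a/b)`, `b <= a`, by the series. -/
def serDn (a b : Nat) : Nat := serDnAux (divDn (Nat.sub a b) (Nat.add a b))

/-- Evaluation from the value of `z`. -/
def serUpAux (z : Nat) : Nat := mulUp (Nat.mul 2 z) (hornUp (mulUp z z))

/-- Upper bound for `log (a/b)`, `b <= a`, `7a <= 10b`, by the series. -/
def serUp (a b : Nat) : Nat := serUpAux (divUp (Nat.sub a b) (Nat.add a b))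

/-- Lower bound for the logarithm of two. -/
def L2D : Nat := 12786308645184615169

/-- Upper bound for the logarithm of two. -/
def L2U : Nat := 12786308645209934237

/-- Lower bound, from the normalisation `B = b 2^e`. -/
def logDn2 (a B e : Nat) : Nat :=
  cond (Nat.ble (Nat.mul 5 a) (Nat.mul 7 B))
    (cond (Nat.ble B a) (Nat.add (Nat.mul e L2D) (serDn a B)) 0)
    (cond (Nat.ble a (Nat.mul 2 B)) (Nat.sub (Nat.mul (Nat.succ e) L2D) (serUp (Nat.mul 2 B) a)) 0)

/-- Normalisation. -/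
def logDn2Aux (a b e : Nat) : Nat := logDn2 a (Nat.shiftLeft b e) e

/-- A lower bound for `log (a/b)`, `b <= a`, `0 < b`. -/
def logDn (a b : Nat) : Nat := logDn2Aux a b (Nat.log2 (Nat.div a b))

/-- Upper bound, from the normalisation `B = b 2^e`. -/
def logUp2 (a b B e : Nat) : Nat :=
  cond (Nat.ble (Nat.mul 5 a) (Nat.mul 7 B))
    (cond (Nat.ble B a) (Nat.add (Nat.mul e L2U) (serUp a B)) (divUp (Nat.sub a b) b))
    (cond (Nat.ble a (Nat.mul 2 B)) (Nat.sub (Nat.mul (Nat.succ e) L2U) (serDn (Nat.mul 2 B) a))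
      (divUp (Nat.sub a b) b))

/-- Normalisation. -/
def logUp2Aux (a b e : Nat) : Nat := logUp2 a b (Nat.shiftLeft b e) e

/-- An upper bound for `log (a/b)`, `b <= a`, `0 < b`. -/
def logUp (a b : Nat) : Nat := logUp2Aux a b (Nat.log2 (Nat.div a b))

/-- An upper bound for `z log z - z + 1` at `z / 2^12`, in units `2^-30`. -/
def phiUp (z : Nat) : Nat :=
  cond (Nat.ble 4096 z)
    (Nat.succ (Nat.shiftRight
      (Nat.sub (Nat.mul z (logUp z 4096)) (Nat.shiftLeft (Nat.sub z 4096) 64)) 46))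
    (cond (Nat.beq z 0) 1073741824
      (Nat.succ (Nat.shiftRight
        (Nat.sub (Nat.shiftLeft (Nat.sub 4096 z) 64) (Nat.mul z (logDn 4096 z))) 46)))

/-- Absolute difference. -/
def absd (x y : Nat) : Nat := Nat.add (Nat.sub x y) (Nat.sub y x)

/-- Slope of the upper line of a coordinate; `w` is the width of the interval. -/
def slope (pl pu w : Nat) : Nat :=
  Nat.div (Nat.sub (Nat.add pu (Nat.mul 4194304 w)) pl) w

/-- Value at the centre of the upper line with slope `S`; `dl`, `du` are the distances from the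
centre to the end points. -/
def lineV (pl pu dl du S : Nat) : Nat :=
  Nat.add (Nat.sub (Nat.add pl (Nat.mul S dl)) (Nat.mul 4194304 dl))
    (Nat.sub (Nat.sub (Nat.add pu (Nat.mul 4194304 du)) (Nat.mul S du))
      (Nat.sub (Nat.add pl (Nat.mul S dl)) (Nat.mul 4194304 dl)))

/-- Slope for a coordinate with centre `c` and radius `r`. -/
def slopeC (c r pl pu : Nat) : Nat := slope pl pu (Nat.add (Nat.sub c (Nat.sub c r)) r)

/-- Line value for a coordinate with centre `c` and radius `r`. -/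
def lineC (c r pl pu S : Nat) : Nat := lineV pl pu (Nat.sub c (Nat.sub c r)) r S

/-- A box of vectors with four entries of sum `4`: centres and radii of the last three entries. -/
structure Bx where
  c1 : Nat
  c2 : Nat
  c3 : Nat
  r1 : Nat
  r2 : Nat
  r3 : Nat

/-- The data of a box used by the check. -/
structure St where
  c0 : Nat
  c1 : Nat
  c2 : Nat
  c3 : Nat
  r0 : Nat
  r1 : Nat
  r2 : Nat
  r3 : Nat
  pl0 : Nat
  pu0 : Nat
  pl1 : Nat
  pu1 : Nat
  pl2 : Nat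
  pu2 : Nat
  pl3 : Nat
  pu3 : Nat
  S0 : Nat
  S1 : Nat
  S2 : Nat
  S3 : Nat
  V : Nat
  P : Nat
  N : Nat
  Y2 : Nat
  Y3 : Nat
  Qr : Nat
  D : Nat
  E : Nat
  W : Nat
  H : Nat

/-- The sum of squares of the centres. -/
def sqS (c0 c1 c2 c3 : Nat) : Nat :=
  Nat.add (Nat.add (Nat.mul c0 c0) (Nat.mul c1 c1)) (Nat.add (Nat.mul c2 c2) (Nat.mul c3 c3))

/-- Assemble the data from the end values of the lines, the slopes, the value `V`, the numbers
`Y = 2^28 - S`, and the numbers `Q`, `D`, `Y^2`. -/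
def mkSt2 (c0 c1 c2 c3 r0 r1 r2 r3 pl0 pu0 pl1 pu1 pl2 pu2 pl3 pu3 S0 S1 S2 S3 V Sq Y2 Y Qr D : Nat) : St :=
  St.mk c0 c1 c2 c3 r0 r1 r2 r3 pl0 pu0 pl1 pu1 pl2 pu2 pl3 pu3 S0 S1 S2 S3 V
    (Nat.mul 32 Sq) (Nat.add 2147483648 V) Y2 (Nat.mul Y2 Y) Qr D
    (Nat.add (Nat.mul Y2 Qr) (Nat.mul 201326592 (Nat.mul D D)))
    (Nat.add (Nat.mul Y2 D) (Nat.mul 201326592 (Nat.mul D D)))
    (Nat.add (Nat.add (Nat.add
      (Nat.mul (absd (Nat.add (Nat.mul 64 c1) S0) (Nat.add (Nat.mul 64 c0) S1)) r1)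
      (Nat.mul (absd (Nat.add (Nat.mul 64 c2) S0) (Nat.add (Nat.mul 64 c0) S2)) r2))
      (Nat.mul (absd (Nat.add (Nat.mul 64 c3) S0) (Nat.add (Nat.mul 64 c0) S3)) r3))
      (Nat.mul 32 Qr))

/-- Assemble the data from `Sq`, `Qr`. -/
def mkSt1 (c0 c1 c2 c3 r0 r1 r2 r3 pl0 pu0 pl1 pu1 pl2 pu2 pl3 pu3 S0 S1 S2 S3 Sq Qr Y : Nat) : St :=
  mkSt2 c0 c1 c2 c3 r0 r1 r2 r3 pl0 pu0 pl1 pu1 pl2 pu2 pl3 pu3 S0 S1 S2 S3
    (Nat.add (Nat.add (lineC c0 r0 pl0 pu0 S0) (lineC c1 r1 pl1 pu1 S1))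
      (Nat.add (lineC c2 r2 pl2 pu2 S2) (lineC c3 r3 pl3 pu3 S3)))
    Sq (Nat.mul Y Y) Y Qr
    (Nat.add (Nat.mul 2 (Nat.add (Nat.add (Nat.mul (absd c1 c0) r1) (Nat.mul (absd c2 c0) r2))
      (Nat.mul (absd c3 c0) r3))) Qr)

/-- The data of a box from centres, radii and the end values of the lines. -/
def mkSt (c0 c1 c2 c3 r0 r1 r2 r3 pl0 pu0 pl1 pu1 pl2 pu2 pl3 pu3 : Nat) : St :=
  mkSt1 c0 c1 c2 c3 r0 r1 r2 r3 pl0 pu0 pl1 pu1 pl2 pu2 pl3 pu3
    (slopeC c0 r0 pl0 pu0) (slopeC c1 r1 pl1 pu1) (slopeC c2 r2 pl2 pu2) (slopeC c3 r3 pl3 pu3)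
    (sqS c0 c1 c2 c3) (sqS r0 r1 r2 r3) (Nat.sub 268435456 (sqS c0 c1 c2 c3))

/-- The data of a box, computing all the end values. -/
def ofBx (x : Bx) : St :=
  ofBx2 (Nat.sub 16384 (Nat.add (Nat.add x.c1 x.c2) x.c3)) (Nat.add (Nat.add x.r1 x.r2) x.r3) x
where
  /-- With the first centre and radius. -/
  ofBx2 (c0 r0 : Nat) (x : Bx) : St :=
    mkSt c0 x.c1 x.c2 x.c3 r0 x.r1 x.r2 x.r3
      (phiUp (Nat.sub c0 r0)) (phiUp (Nat.add c0 r0))
      (phiUp (Nat.sub x.c1 x.r1)) (phiUp (Nat.add x.c1 x.r1))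
      (phiUp (Nat.sub x.c2 x.r2)) (phiUp (Nat.add x.c2 x.r2))
      (phiUp (Nat.sub x.c3 x.r3)) (phiUp (Nat.add x.c3 x.r3))

/-- Table of `log f`, `128 <= f < 256`, rounded down, in units `2^-24`, with 32 bits for each. -/
def tlTable : Nat := 22606382856891692300809745590937026553006025964102558312348508116931385162667370980964388545388908363395806893825127216554945515273483330273711147732685271340107516886540868456981280624820915297355354893141510543277952648921203070910449322473743845958340419038215319706075355272546440646890731354214464223349943809428249146235100695710690597278845723847278112312271621644031955018813227144104056103543119071876612360707019256778787261918570658313795850640229965778162681515404290741388993914605122304584951862002784831895588790111446033417405133280892385988911859440181051353228435422140335199502595489034904780738090899208287059720292763335408946014360723063892035532944206182955541968785825528494774267489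016081287883215746441191620581991382538514809461047824006849999656941545434765985460081408219786267303247177834105722293090872602480691684162710681052957742952244366596515513504728696616384752181721478892265558284013688091239682797482073774127098887109749222766244170237623708505004785998796890200172670909156704948569558682512584908110572834290630824233842410914806850376652808059631489590275630264869870353524664344791245423130949962065235256425310652961958263596065731676994916025330426147326137584082742307532537285189287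

/-- Lookup in the table. -/
def tl (f : Nat) : Nat :=
  Nat.land (Nat.shiftRight tlTable (Nat.mul 32 (Nat.sub f 128))) 4294967295

/-- The data of a permutation in a dual certificate. -/
structure GT where
  t0 : Nat
  t1 : Nat
  t2 : Nat
  t3 : Nat
  v : Nat
  ok : Bool

/-- From the floors `t_i` of `1024 p_i / s`, `f`, `e` with `s + 128 ~ f 2^e`. -/
def gterm3 (t0 t1 t2 t3 f e u : Nat) (ok : Bool) : GT :=
  GT.mk (Nat.add (Nat.mul 65536 t0) u) (Nat.add (Nat.mul 65536 t1) u)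
    (Nat.add (Nat.mul 65536 t2) u) (Nat.add (Nat.mul 65536 t3) u) (Nat.shiftLeft f e) ok

/-- The same with `T`, `R`. -/
def gterm2 (t0 t1 t2 t3 f e T R : Nat) : GT :=
  gterm3 t0 t1 t2 t3 f e (Nat.sub T R)
    (cond (Nat.ble R T) (cond (Nat.ble 128 f) (Nat.ble f 255) false) false)

/-- The numbers `T`, `R` from the floors, `f`, `e`. -/
def gterm1 (t0 t1 t2 t3 f e : Nat) : GT :=
  gterm2 t0 t1 t2 t3 f e
    (Nat.sub (Nat.add (Nat.add 578813952 (tl f)) (Nat.mul e 11629079)) 302356080)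
    (Nat.mul 32 (sqS t0 t1 t2 t3))

/-- The exponent. -/
def gterm0 (t0 t1 t2 t3 v e : Nat) : GT :=
  gterm1 t0 t1 t2 t3 (Nat.shiftRight v e) e

/-- The dual certificate for a permutation from the four products `p_i`, with their sum `s`. -/
def gterm (p0 p1 p2 p3 s : Nat) : GT :=
  gterm0 (Nat.div (Nat.mul 1024 p0) s) (Nat.div (Nat.mul 1024 p1) s)
    (Nat.div (Nat.mul 1024 p2) s) (Nat.div (Nat.mul 1024 p3) s)
    (Nat.add s 128) (Nat.sub (Nat.log2 (Nat.add s 128)) 7)

/-- The certificate for a permutation given by the products. -/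
def gtermP (p0 p1 p2 p3 : Nat) : GT :=
  gterm p0 p1 p2 p3 (Nat.add (Nat.add p0 p1) (Nat.add p2 p3))

/-- The bilinear lower bound: the matrix and the constant. -/
structure Dual where
  C00 : Nat
  C01 : Nat
  C02 : Nat
  C03 : Nat
  C10 : Nat
  C11 : Nat
  C12 : Nat
  C13 : Nat
  C20 : Nat
  C21 : Nat
  C22 : Nat
  C23 : Nat
  C30 : Nat
  C31 : Nat
  C32 : Nat
  C33 : Nat
  neg : Nat
  ok : Bool

/-- The bilinear lower bound from the data of the permutations. -/
def mkDual2 (g0 g1 g2 g3 g4 g5 g6 g7 g8 g9 g10 g11 g12 g13 g14 g15 g16 g17 g18 g19 g20 g21 g22 g23 : GT) : Dual :=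
  Dual.mk
    (Nat.add (Nat.add g0.t0 (Nat.add g1.t0 g2.t0)) (Nat.add g3.t0 (Nat.add g4.t0 g5.t0)))
    (Nat.add (Nat.add g6.t0 (Nat.add g7.t0 g8.t0)) (Nat.add g9.t0 (Nat.add g10.t0 g11.t0)))
    (Nat.add (Nat.add g12.t0 (Nat.add g13.t0 g14.t0)) (Nat.add g15.t0 (Nat.add g16.t0 g17.t0)))
    (Nat.add (Nat.add g18.t0 (Nat.add g19.t0 g20.t0)) (Nat.add g21.t0 (Nat.add g22.t0 g23.t0)))
    (Nat.add (Nat.add g6.t1 (Nat.add g7.t1 g12.t1)) (Nat.add g13.t1 (Nat.add g18.t1 g19.t1)))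
    (Nat.add (Nat.add g0.t1 (Nat.add g1.t1 g14.t1)) (Nat.add g15.t1 (Nat.add g20.t1 g21.t1)))
    (Nat.add (Nat.add g2.t1 (Nat.add g3.t1 g8.t1)) (Nat.add g9.t1 (Nat.add g22.t1 g23.t1)))
    (Nat.add (Nat.add g4.t1 (Nat.add g5.t1 g10.t1)) (Nat.add g11.t1 (Nat.add g16.t1 g17.t1)))
    (Nat.add (Nat.add g8.t2 (Nat.add g10.t2 g14.t2)) (Nat.add g16.t2 (Nat.add g20.t2 g22.t2)))
    (Nat.add (Nat.add g2.t2 (Nat.add g4.t2 g12.t2)) (Nat.add g17.t2 (Nat.add g18.t2 g23.t2)))
    (Nat.add (Nat.add g0.t2 (Nat.add g5.t2 g6.t2)) (Nat.add g11.t2 (Nat.add g19.t2 g21.t2)))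
    (Nat.add (Nat.add g1.t2 (Nat.add g3.t2 g7.t2)) (Nat.add g9.t2 (Nat.add g13.t2 g15.t2)))
    (Nat.add (Nat.add g9.t3 (Nat.add g11.t3 g15.t3)) (Nat.add g17.t3 (Nat.add g21.t3 g23.t3)))
    (Nat.add (Nat.add g3.t3 (Nat.add g5.t3 g13.t3)) (Nat.add g16.t3 (Nat.add g19.t3 g22.t3)))
    (Nat.add (Nat.add g1.t3 (Nat.add g4.t3 g7.t3)) (Nat.add g10.t3 (Nat.add g18.t3 g20.t3)))
    (Nat.add (Nat.add g0.t3 (Nat.add g2.t3 g6.t3)) (Nat.add g8.t3 (Nat.add g12.t3 g14.t3)))
    (Nat.add 54760833024 (Nat.add (Nat.add (Nat.add (Nat.add g0.v (Nat.add g1.v g2.v)) (Nat.add g3.v (Nat.add g4.v g5.v))) (Nat.add (Nat.add g6.v (Nat.add g7.v g8.v)) (Nat.add g9.v (Nat.add g10.v g11.v)))) (Nat.add (Nat.add (Nat.add g12.v (Nat.add g13.v g14.v)) (Nat.add g15.v (Nat.add g16.v g17.v))) (Nat.add (Nat.add g18.v (Nat.add g19.v g20.v)) (Nat.add g21.v (Nat.add g22.v g23.v))))))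
    (cond (cond (cond (cond g0.ok (cond g1.ok g2.ok false) false) (cond g3.ok (cond g4.ok g5.ok false) false) false) (cond (cond g6.ok (cond g7.ok g8.ok false) false) (cond g9.ok (cond g10.ok g11.ok false) false) false) false) (cond (cond (cond g12.ok (cond g13.ok g14.ok false) false) (cond g15.ok (cond g16.ok g17.ok false) false) false) (cond (cond g18.ok (cond g19.ok g20.ok false) false) (cond g21.ok (cond g22.ok g23.ok false) false) false) false) false)

/-- The bilinear lower bound at given centres, from the sixteen products. -/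
def mkDual1 (p00 p01 p02 p03 p10 p11 p12 p13 p20 p21 p22 p23 p30 p31 p32 p33 : Nat) : Dual :=
  mkDual2
    (gtermP p00 p11 p22 p33)
    (gtermP p00 p11 p23 p32)
    (gtermP p00 p12 p21 p33)
    (gtermP p00 p12 p23 p31)
    (gtermP p00 p13 p21 p32)
    (gtermP p00 p13 p22 p31)
    (gtermP p01 p10 p22 p33)
    (gtermP p01 p10 p23 p32)
    (gtermP p01 p12 p20 p33)
    (gtermP p01 p12 p23 p30)
    (gtermP p01 p13 p20 p32)
    (gtermP p01 p13 p22 p30)
    (gtermP p02 p10 p21 p33)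
    (gtermP p02 p10 p23 p31)
    (gtermP p02 p11 p20 p33)
    (gtermP p02 p11 p23 p30)
    (gtermP p02 p13 p20 p31)
    (gtermP p02 p13 p21 p30)
    (gtermP p03 p10 p21 p32)
    (gtermP p03 p10 p22 p31)
    (gtermP p03 p11 p20 p32)
    (gtermP p03 p11 p22 p30)
    (gtermP p03 p12 p20 p31)
    (gtermP p03 p12 p21 p30)

/-- The bilinear lower bound at given centres. -/
def mkDual (a0 a1 a2 a3 b0 b1 b2 b3 : Nat) : Dual :=
  mkDual1
    (Nat.mul a0 b0) (Nat.mul a0 b1) (Nat.mul a0 b2) (Nat.mul a0 b3)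
    (Nat.mul a1 b0) (Nat.mul a1 b1) (Nat.mul a1 b2) (Nat.mul a1 b3)
    (Nat.mul a2 b0) (Nat.mul a2 b1) (Nat.mul a2 b2) (Nat.mul a2 b3)
    (Nat.mul a3 b0) (Nat.mul a3 b1) (Nat.mul a3 b2) (Nat.mul a3 b3)

/-- A gradient term of the check. Here `K1 = 9 * 2^57`, `K2 = 27 * 2^78`. -/
def gk (R0K S0K hp hn Y3o c0 S0 ck Sk Rk r : Nat) : Nat :=
  Nat.mul (absd
    (Nat.add (Nat.add (Nat.mul 1297036692682702848 Rk) S0K)
      (Nat.add (Nat.mul Y3o (Nat.add (Nat.mul 64 c0) Sk)) (Nat.add (Nat.mul hp ck) (Nat.mul hn c0))))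
    (Nat.add (Nat.add R0K (Nat.mul 8160249282398746929266688 Sk))
      (Nat.add (Nat.mul Y3o (Nat.add (Nat.mul 64 ck) S0)) (Nat.add (Nat.mul hp c0) (Nat.mul hn ck))))) r

/-- The sum of the three gradient terms of a side. -/
def gSum (A : St) (R0 R1 R2 R3 Y3o hp hn : Nat) : Nat :=
  gSum2 A R1 R2 R3 Y3o hp hn (Nat.mul 1297036692682702848 R0) (Nat.mul 8160249282398746929266688 A.S0)
where
  /-- With the constants. -/
  gSum2 (A : St) (R1 R2 R3 Y3o hp hn R0K S0K : Nat) : Nat :=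
    Nat.add (Nat.add (gk R0K S0K hp hn Y3o A.c0 A.S0 A.c1 A.S1 R1 A.r1)
      (gk R0K S0K hp hn Y3o A.c0 A.S0 A.c2 A.S2 R2 A.r2))
      (gk R0K S0K hp hn Y3o A.c0 A.S0 A.c3 A.S3 R3 A.r3)

/-- The bilinear remainder term, with `m0 = C00`. -/
def mTerm (D : Dual) (A B : St) : Nat :=
  Nat.add (Nat.add
    (Nat.mul A.r1 (Nat.add (Nat.add
      (Nat.mul (absd (Nat.add D.C11 D.C00) (Nat.add D.C10 D.C01)) B.r1)
      (Nat.mul (absd (Nat.add D.C12 D.C00) (Nat.add D.C10 D.C02)) B.r2))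
      (Nat.mul (absd (Nat.add D.C13 D.C00) (Nat.add D.C10 D.C03)) B.r3)))
    (Nat.mul A.r2 (Nat.add (Nat.add
      (Nat.mul (absd (Nat.add D.C21 D.C00) (Nat.add D.C20 D.C01)) B.r1)
      (Nat.mul (absd (Nat.add D.C22 D.C00) (Nat.add D.C20 D.C02)) B.r2))
      (Nat.mul (absd (Nat.add D.C23 D.C00) (Nat.add D.C20 D.C03)) B.r3))))
    (Nat.mul A.r3 (Nat.add (Nat.add
      (Nat.mul (absd (Nat.add D.C31 D.C00) (Nat.add D.C30 D.C01)) B.r1)
      (Nat.mul (absd (Nat.add D.C32 D.C00) (Nat.add D.C30 D.C02)) B.r2))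
      (Nat.mul (absd (Nat.add D.C33 D.C00) (Nat.add D.C30 D.C03)) B.r3)))

/-- The positive part of the final inequality at a leaf. -/
def posT (A B : St) (SumCC : Nat) : Nat :=
  Nat.add (Nat.mul 1297036692682702848 SumCC) (Nat.add (Nat.mul B.Y3 A.N) (Nat.mul A.Y3 B.N))

/-- The negative part of the final inequality at a leaf, without the gradient terms. -/
def negT (A B : St) (D : Dual) : Nat :=
  Nat.add (Nat.add (Nat.add (Nat.mul 21760664753063325144711168 D.neg) (Nat.mul 8160249282398746929266688 (Nat.add A.V B.V)))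
      (Nat.add (Nat.mul B.Y3 A.P) (Nat.mul A.Y3 B.P)))
    (Nat.add (Nat.add (Nat.mul 1297036692682702848 (mTerm D A B))
        (Nat.add (Nat.mul 32 (Nat.mul B.Y3 A.Qr)) (Nat.mul 32 (Nat.mul A.Y3 B.Qr))))
      (Nat.add
        (Nat.add (Nat.mul 3 (Nat.mul (absd B.P B.N) A.E)) (Nat.mul 3 (Nat.mul (absd A.P A.N) B.E)))
        (Nat.add (Nat.mul 3 (Nat.mul B.W A.H)) (Nat.mul 3 (Nat.mul A.W B.H)))))

/-- A row of a matrix against a vector. -/
def row (x0 x1 x2 x3 y0 y1 y2 y3 : Nat) : Nat :=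
  Nat.add (Nat.add (Nat.mul x0 y0) (Nat.mul x1 y1)) (Nat.add (Nat.mul x2 y2) (Nat.mul x3 y3))

/-- The final inequality at a leaf, given the dual certificate and the rows. -/
def leafOK1 (A B : St) (D : Dual) (Rb0 Rb1 Rb2 Rb3 Ra0 Ra1 Ra2 Ra3 : Nat) : Bool :=
  cond D.ok
    (Nat.ble
      (Nat.add (negT A B D)
        (Nat.add (gSum A Rb0 Rb1 Rb2 Rb3 B.Y3 (Nat.mul 6 (Nat.mul A.Y2 B.P)) (Nat.mul 6 (Nat.mul A.Y2 B.N)))
          (gSum B Ra0 Ra1 Ra2 Ra3 A.Y3 (Nat.mul 6 (Nat.mul B.Y2 A.P)) (Nat.mul 6 (Nat.mul B.Y2 A.N)))))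
      (posT A B (row A.c0 A.c1 A.c2 A.c3 Rb0 Rb1 Rb2 Rb3)))
    false

/-- The rows. -/
def leafOK2 (A B : St) (D : Dual) : Bool :=
  leafOK1 A B D
    (row D.C00 D.C01 D.C02 D.C03 B.c0 B.c1 B.c2 B.c3)
    (row D.C10 D.C11 D.C12 D.C13 B.c0 B.c1 B.c2 B.c3)
    (row D.C20 D.C21 D.C22 D.C23 B.c0 B.c1 B.c2 B.c3)
    (row D.C30 D.C31 D.C32 D.C33 B.c0 B.c1 B.c2 B.c3)
    (row D.C00 D.C10 D.C20 D.C30 A.c0 A.c1 A.c2 A.c3)
    (row D.C01 D.C11 D.C21 D.C31 A.c0 A.c1 A.c2 A.c3)
    (row D.C02 D.C12 D.C22 D.C32 A.c0 A.c1 A.c2 A.c3)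
    (row D.C03 D.C13 D.C23 D.C33 A.c0 A.c1 A.c2 A.c3)

/-- The check at a leaf. -/
def leafOK (A B : St) : Bool :=
  leafOK2 A B (mkDual A.c0 A.c1 A.c2 A.c3 B.c0 B.c1 B.c2 B.c3)

/-- The order of the entries is violated on the whole box. -/
def chamberOut (A : St) : Bool :=
  cond (Nat.blt (Nat.add A.c1 A.r1) (Nat.sub A.c2 A.r2)) true
    (cond (Nat.blt (Nat.add A.c2 A.r2) (Nat.sub A.c3 A.r3)) true
      (Nat.blt (Nat.add A.c0 A.r0) (Nat.sub A.c1 A.r1)))

/-- The check that a pair of boxes does not meet the domain. -/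
def rejOK (A B : St) : Bool :=
  cond (chamberOut A) true
    (cond (chamberOut B) true
      (cond (Nat.blt (Nat.add B.c3 B.r3) (Nat.sub A.c3 A.r3)) true
        (cond (Nat.ble 1024 (Nat.sub B.c3 B.r3))
          (cond (Nat.blt (Nat.add B.P (Nat.mul 32 B.D)) 4294967296) true
            (Nat.blt (Nat.mul 10 (Nat.add A.P (Nat.mul 32 A.D))) 36507222016))
          false)))

/-- The lower half of a box in the coordinate 1. -/
def lo1 (A : St) (h m : Nat) : St :=
  mkSt (Nat.add A.c0 h) (Nat.sub A.c1 h) A.c2 A.c3 (Nat.sub A.r0 h) h A.r2 A.r3 (phiUp (Nat.sub (Nat.add A.c0 h) (Nat.sub A.r0 h))) A.pu0 A.pl1 m A.pl2 A.pu2 A.pl3 A.pu3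

/-- The upper half of a box in the coordinate 1. -/
def hi1 (A : St) (h m : Nat) : St :=
  mkSt (Nat.sub A.c0 h) (Nat.add A.c1 h) A.c2 A.c3 (Nat.sub A.r0 h) h A.r2 A.r3 A.pl0 (phiUp (Nat.add (Nat.sub A.c0 h) (Nat.sub A.r0 h))) m A.pu1 A.pl2 A.pu2 A.pl3 A.pu3

/-- The lower half of a box in the coordinate 2. -/
def lo2 (A : St) (h m : Nat) : St :=
  mkSt (Nat.add A.c0 h) A.c1 (Nat.sub A.c2 h) A.c3 (Nat.sub A.r0 h) A.r1 h A.r3 (phiUp (Nat.sub (Nat.add A.c0 h) (Nat.sub A.r0 h))) A.pu0 A.pl1 A.pu1 A.pl2 m A.pl3 A.pu3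

/-- The upper half of a box in the coordinate 2. -/
def hi2 (A : St) (h m : Nat) : St :=
  mkSt (Nat.sub A.c0 h) A.c1 (Nat.add A.c2 h) A.c3 (Nat.sub A.r0 h) A.r1 h A.r3 A.pl0 (phiUp (Nat.add (Nat.sub A.c0 h) (Nat.sub A.r0 h))) A.pl1 A.pu1 m A.pu2 A.pl3 A.pu3

/-- The lower half of a box in the coordinate 3. -/
def lo3 (A : St) (h m : Nat) : St :=
  mkSt (Nat.add A.c0 h) A.c1 A.c2 (Nat.sub A.c3 h) (Nat.sub A.r0 h) A.r1 A.r2 h (phiUp (Nat.sub (Nat.add A.c0 h) (Nat.sub A.r0 h))) A.pu0 A.pl1 A.pu1 A.pl2 A.pu2 A.pl3 m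

/-- The upper half of a box in the coordinate 3. -/
def hi3 (A : St) (h m : Nat) : St :=
  mkSt (Nat.sub A.c0 h) A.c1 A.c2 (Nat.add A.c3 h) (Nat.sub A.r0 h) A.r1 A.r2 h A.pl0 (phiUp (Nat.add (Nat.sub A.c0 h) (Nat.sub A.r0 h))) A.pl1 A.pu1 A.pl2 A.pu2 m A.pu3

/-- The admissibility of halving the radius `r` to `h`. -/
def splitOK (r h c0 : Nat) : Bool :=
  cond (Nat.beq (Nat.mul 2 h) r) (Nat.ble h c0) false

/-- The walk through the digits of a certificate: `0` is a leaf, `1` a box out of the domain, and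
`2, ..., 7` are the halvings in the coordinates of the first and second vector. -/
def walk : Nat → Nat → St → St → Option Nat
  | 0, _, _, _ => none
  | n + 1, ds, A, B =>
    match Nat.mod ds 8 with
    | 0 => cond (leafOK A B) (some (Nat.div ds 8)) none
    | 1 => cond (rejOK A B) (some (Nat.div ds 8)) none
    | 2 => cond (splitOK A.r1 (Nat.div A.r1 2) A.c0)
      (match walk n (Nat.div ds 8) (lo1 A (Nat.div A.r1 2) (phiUp A.c1)) B with
        | none => none
        | some r => walk n r (hi1 A (Nat.div A.r1 2) (phiUp A.c1)) B)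
      none
    | 3 => cond (splitOK A.r2 (Nat.div A.r2 2) A.c0)
      (match walk n (Nat.div ds 8) (lo2 A (Nat.div A.r2 2) (phiUp A.c2)) B with
        | none => none
        | some r => walk n r (hi2 A (Nat.div A.r2 2) (phiUp A.c2)) B)
      none
    | 4 => cond (splitOK A.r3 (Nat.div A.r3 2) A.c0)
      (match walk n (Nat.div ds 8) (lo3 A (Nat.div A.r3 2) (phiUp A.c3)) B with
        | none => none
        | some r => walk n r (hi3 A (Nat.div A.r3 2) (phiUp A.c3)) B)
      none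
    | 5 => cond (splitOK B.r1 (Nat.div B.r1 2) B.c0)
      (match walk n (Nat.div ds 8) A (lo1 B (Nat.div B.r1 2) (phiUp B.c1)) with
        | none => none
        | some r => walk n r A (hi1 B (Nat.div B.r1 2) (phiUp B.c1)))
      none
    | 6 => cond (splitOK B.r2 (Nat.div B.r2 2) B.c0)
      (match walk n (Nat.div ds 8) A (lo2 B (Nat.div B.r2 2) (phiUp B.c2)) with
        | none => none
        | some r => walk n r A (hi2 B (Nat.div B.r2 2) (phiUp B.c2)))
      none
    | _ => cond (splitOK B.r3 (Nat.div B.r3 2) B.c0)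
      (match walk n (Nat.div ds 8) A (lo3 B (Nat.div B.r3 2) (phiUp B.c3)) with
        | none => none
        | some r => walk n r A (hi3 B (Nat.div B.r3 2) (phiUp B.c3)))
      none

/-- The admissibility of a box. -/
def bxOK (x : Bx) : Bool :=
  cond (Nat.ble (Nat.add (Nat.add x.c1 x.c2) x.c3) 16384)
    (cond (Nat.ble x.r1 x.c1) (cond (Nat.ble x.r2 x.c2) (Nat.ble x.r3 x.c3) false) false) false

/-- The check of a certificate on a pair of boxes. -/
def chk (ds : Nat) (A B : Bx) : Bool :=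
  cond (bxOK A) (cond (bxOK B)
    (match walk 64 ds (ofBx A) (ofBx B) with
      | none => false
      | some _ => true) false) false

end Vale.Agent.P154.Q4.BB
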